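import Mathlib

/-!
# X212 / Fred93 / Basic (helper93): Fredholm operators between Banach spaces and their index

`ind L = dim ker L - dim coker L` (Mathlib's `LinearMap.index`), `Fr L n := L.IsFredholm ∧ ind L = n`.
* `Fr.of_block`, `exists_block` : stabilisation `(ξ, q) ↦ (L ξ + σ q, π ξ)` invertible;
* `isFredholm_of_finite` : finite kernel and cokernel are enough;
* `Fr.eventually`, `Fr.of_preconnected`, `Fr.of_path` : openness, homotopy invariance;
* `Fr.comp`, `Fr.prodMap`, `Fr.tri`, `Fr.coprod`, `Fr.prod`, `Fr.conj`;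
* `Fr.nonneg_of_surj`, `Fr.finrank_ker`, `Fr.surj_of_inj`, `Fr.inj_of_surj`.
-/

set_option autoImplicit false
set_option linter.unusedSectionVars false
open scoped Topology
open Set Filter Function Module ContinuousLinearMap

namespace Crest.Agent.X212.Fred93

variable {𝕜 : Type*} [RCLike 𝕜] {E F G H : Type*} [NormedAddCommGroup E] [NormedSpace 𝕜 E]
  [NormedAddCommGroup F] [NormedSpace 𝕜 F] [NormedAddCommGroup G] [NormedSpace 𝕜 G]
  [NormedAddCommGroup H] [NormedSpace 𝕜 H]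

/-- the index -/
noncomputable abbrev ind (L : E →L[𝕜] F) : ℤ := (L : E →ₗ[𝕜] F).index

/-- Fredholm of index `n` -/
def Fr (L : E →L[𝕜] F) (n : ℤ) : Prop := L.IsFredholm ∧ ind L = n

theorem Fr.of {L : E →L[𝕜] F} (h : L.IsFredholm) : Fr L (ind L) := ⟨h, rfl⟩

theorem Fr.cast {L : E →L[𝕜] F} {n m : ℤ} (h : Fr L n) (e : n = m) : Fr L m := e ▸ h

theorem Fr.congr {L L' : E →L[𝕜] F} {n : ℤ} (h : Fr L n) (e : ∀ x, L' x = L x) : Fr L' n :=
  (ContinuousLinearMap.ext e : L' = L) ▸ h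

theorem Fr.unique {L : E →L[𝕜] F} {n m : ℤ} (h : Fr L n) (h' : Fr L m) : n = m := h.2.symm.trans h'.2

theorem isFredholm_comp {A : E →L[𝕜] F} {B : F →L[𝕜] G} (hB : B.IsFredholm) (hA : A.IsFredholm) :
    (B.comp A).IsFredholm := by
  obtain ⟨a, ha⟩ := hA.exists_isQuasiInverse
  obtain ⟨b, hb⟩ := hB.exists_isQuasiInverse
  exact IsFredholm.of_isQuasiInverse (v := a.comp b) (ha.comp hb)

theorem Fr.comp {A : E →L[𝕜] F} {B : F →L[𝕜] G} {n m : ℤ} (hB : Fr B m) (hA : Fr A n) :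
    Fr (B.comp A) (m + n) := by
  refine ⟨isFredholm_comp hB.1 hA.1, ?_⟩
  have := hA.1.finite_ker
  have := hB.1.finite_ker
  have : FiniteDimensional 𝕜 (F ⧸ A.range) := hA.1.finite_coker
  have : FiniteDimensional 𝕜 (G ⧸ B.range) := hB.1.finite_coker
  rw [← hA.2, ← hB.2]
  exact LinearMap.index_comp (f := (A : E →ₗ[𝕜] F)) (B : F →ₗ[𝕜] G)

theorem Fr.equiv (e : E ≃L[𝕜] F) : Fr (e : E →L[𝕜] F) 0 :=
  ⟨IsFredholm.of_isQuasiInverse (v := (e.symm : F →L[𝕜] E)) e.toLinearEquiv.isQuasiInverse,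
    LinearEquiv.index_eq_zero (e := e.toLinearEquiv)⟩

theorem Fr.id : Fr (ContinuousLinearMap.id 𝕜 E) 0 := Fr.equiv (ContinuousLinearEquiv.refl 𝕜 E)

theorem Fr.conj {L : E →L[𝕜] F} {n : ℤ} (h : Fr L n) (a : G ≃L[𝕜] E) (b : F ≃L[𝕜] H) :
    Fr ((b : F →L[𝕜] H).comp (L.comp (a : G →L[𝕜] E))) n :=
  ((Fr.equiv b).comp (h.comp (Fr.equiv a))).cast (by ring)

theorem hasNoeth {K : Type*} [AddCommGroup K] [Module 𝕜 K] [FiniteDimensional 𝕜 K]
    {u : E →ₗ[𝕜] F} (a : E →ₗ[𝕜] K) (b : K →ₗ[𝕜] F) (h : ∀ x, u x = b (a x)) :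
    u.HasNoetherianRange := by
  have : u = b ∘ₗ a := LinearMap.ext h
  rw [this]
  exact LinearMap.HasNoetherianRange.of_isNoetherian_dom.comp_right a

theorem noeth_congr {u u' : E →ₗ[𝕜] F} (h : u.HasNoetherianRange) (e : ∀ x, u' x = u x) :
    u'.HasNoetherianRange := (LinearMap.ext e : u' = u) ▸ h

theorem isFredholm_of_quasi {L : E →L[𝕜] F} (v : F →L[𝕜] E)
    (h1 : ((v : F →ₗ[𝕜] E) ∘ₗ (L : E →ₗ[𝕜] F) - LinearMap.id).HasNoetherianRange)
    (h2 : ((L : E →ₗ[𝕜] F) ∘ₗ (v : F →ₗ[𝕜] E) - LinearMap.id).HasNoetherianRange) : L.IsFredholm :=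
  IsFredholm.of_isQuasiInverse (v := v)
    ⟨LinearMap.FiniteRangeSetoid.equiv_iff_hasNoetherianRange.2 h1,
      LinearMap.FiniteRangeSetoid.equiv_iff_hasNoetherianRange.2 h2⟩

section fd
variable {K Q : Type*} [NormedAddCommGroup K] [NormedSpace 𝕜 K] [FiniteDimensional 𝕜 K]
  [NormedAddCommGroup Q] [NormedSpace 𝕜 Q] [FiniteDimensional 𝕜 Q]

theorem Fr.fst : Fr (fst 𝕜 F K) (finrank 𝕜 K) := by
  refine ⟨isFredholm_of_quasi (inl 𝕜 F K)
    (hasNoeth (LinearMap.snd 𝕜 F K) (-LinearMap.inr 𝕜 F K) fun x => by simp [Prod.ext_iff])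
    (hasNoeth (0 : F →ₗ[𝕜] K) 0 fun x => by simp), ?_⟩
  rw [ind, LinearMap.index_of_surjective (fun f => ⟨(f, 0), rfl⟩), ContinuousLinearMap.coe_fst,
    LinearMap.ker_fst, LinearMap.finrank_range_of_inj LinearMap.inr_injective]

theorem Fr.inl : Fr (inl 𝕜 E Q) (-(finrank 𝕜 Q : ℤ)) := by
  have h : (ContinuousLinearMap.inl 𝕜 E Q).IsFredholm := isFredholm_of_quasi (ContinuousLinearMap.fst 𝕜 E Q)
    (hasNoeth (0 : E →ₗ[𝕜] Q) 0 fun x => by simp)
    (hasNoeth (LinearMap.snd 𝕜 E Q) (-LinearMap.inr 𝕜 E Q) fun x => by simp [Prod.ext_iff])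
  have h1 := ((Fr.fst (F := E) (K := Q)).comp (Fr.of h)).unique (Fr.id (𝕜 := 𝕜) (E := E))
  exact ⟨h, by omega⟩

/-- the stabilised operator -/
noncomputable def blk (L : E →L[𝕜] F) (π : E →L[𝕜] K) (σ : Q →L[𝕜] F) : E × Q →L[𝕜] F × K :=
  (L.coprod σ).prod (π.comp (ContinuousLinearMap.fst 𝕜 E Q))

@[simp] theorem blk_apply (L : E →L[𝕜] F) (π : E →L[𝕜] K) (σ : Q →L[𝕜] F) (z : E × Q) :
    blk L π σ z = (L z.1 + σ z.2, π z.1) := rfl

theorem Fr.of_blk {L : E →L[𝕜] F} {π : E →L[𝕜] K} {σ : Q →L[𝕜] F} {n : ℤ} (h : Fr (blk L π σ) n) :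
    Fr L (n + finrank 𝕜 K - finrank 𝕜 Q) := by
  have e : L = (ContinuousLinearMap.fst 𝕜 F K).comp ((blk L π σ).comp (ContinuousLinearMap.inl 𝕜 E Q)) := by
    ext x
    simp
  rw [e]
  exact (Fr.fst.comp (h.comp Fr.inl)).cast (by ring)

theorem Fr.of_block {L : E →L[𝕜] F} {π : E →L[𝕜] K} {σ : Q →L[𝕜] F} (B : (E × Q) ≃L[𝕜] (F × K))
    (h : (B : E × Q →L[𝕜] F × K) = blk L π σ) : Fr L (finrank 𝕜 K - finrank 𝕜 Q) :=
  (Fr.of_blk (h ▸ Fr.equiv B)).cast (by ring)

/-- maps between finite-dimensional spaces -/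
theorem Fr.fin (L : K →L[𝕜] Q) : Fr L (finrank 𝕜 K - finrank 𝕜 Q) :=
  ⟨isFredholm_of_quasi 0 LinearMap.HasNoetherianRange.of_isNoetherian_dom
    LinearMap.HasNoetherianRange.of_isNoetherian_dom, LinearMap.index_eq_of_finiteDimensional⟩

end fd

theorem Fr.nonneg_of_surj {L : E →L[𝕜] F} {n : ℤ} (h : Fr L n) (hs : Surjective L) : 0 ≤ n := by
  rw [← h.2, ind, LinearMap.index_of_surjective hs]
  positivity

theorem Fr.finrank_ker {L : E →L[𝕜] F} {n : ℤ} (h : Fr L n) (hs : Surjective L) :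
    (finrank 𝕜 L.ker : ℤ) = n := by
  rw [← h.2, ind, LinearMap.index_of_surjective hs]

theorem Fr.nonpos_of_inj {L : E →L[𝕜] F} {n : ℤ} (h : Fr L n) (hs : Injective L) : n ≤ 0 := by
  rw [← h.2, ind, LinearMap.index_of_injective hs]
  simp

theorem Fr.le_finrank_ker {L : E →L[𝕜] F} {n : ℤ} (h : Fr L n) : n ≤ finrank 𝕜 L.ker := by
  rw [← h.2, ind, LinearMap.index_eq_finrank_sub]
  simp

theorem Fr.surj_of_inj {L : E →L[𝕜] F} (h : Fr L 0) (hs : Injective L) : Surjective L := by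
  have h1 := h.2
  rw [ind, LinearMap.index_of_injective hs, neg_eq_zero, Nat.cast_eq_zero] at h1
  have : FiniteDimensional 𝕜 (F ⧸ L.range) := h.1.finite_coker
  have h2 : Subsingleton (F ⧸ L.range) := Module.finrank_zero_iff.1 h1
  exact LinearMap.range_eq_top.1 (Submodule.Quotient.subsingleton_iff.1 h2)

theorem Fr.surj_of_finrank {L : E →L[𝕜] F} {n : ℤ} (h : Fr L n) (hs : (finrank 𝕜 L.ker : ℤ) ≤ n) :
    Surjective L := by
  have h1 := h.2
  rw [ind, LinearMap.index_eq_finrank_sub] at h1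
  have : FiniteDimensional 𝕜 (F ⧸ L.range) := h.1.finite_coker
  have h2 : Subsingleton (F ⧸ L.range) := (Module.finrank_zero_iff (R := 𝕜)).1 (by omega)
  exact LinearMap.range_eq_top.1 (Submodule.Quotient.subsingleton_iff.1 h2)

theorem Fr.inj_of_surj {L : E →L[𝕜] F} (h : Fr L 0) (hs : Surjective L) : Injective L := by
  have h1 := h.finrank_ker hs
  have := h.1.finite_ker
  exact LinearMap.ker_eq_bot.1 (Submodule.finrank_eq_zero.1 (by exact_mod_cast h1))

variable [CompleteSpace E] [CompleteSpace F] [CompleteSpace G] [CompleteSpace H]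

/-- stabilisation by the kernel and the cokernel -/
theorem exists_block_aux {L : E →L[𝕜] F} [FiniteDimensional 𝕜 L.ker]
    [FiniteDimensional 𝕜 (F ⧸ L.range)] :
    ∃ (Q : Submodule 𝕜 F) (_ : FiniteDimensional 𝕜 Q) (π : E →L[𝕜] L.ker)
      (B : (E × Q) ≃L[𝕜] (F × L.ker)), IsCompl L.range Q ∧ (∀ x : L.ker, π x = x) ∧
      (B : E × Q →L[𝕜] F × L.ker) = blk L π Q.subtypeL := by
  obtain ⟨Q, hQ⟩ := L.range.exists_isCompl
  have hfin : FiniteDimensional 𝕜 Q := (Submodule.quotientEquivOfIsCompl _ _ hQ).finiteDimensional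
  obtain ⟨π, hπ⟩ := Submodule.ClosedComplemented.of_finiteDimensional L.ker
  have : CompleteSpace Q := FiniteDimensional.complete 𝕜 Q
  have : CompleteSpace L.ker := FiniteDimensional.complete 𝕜 L.ker
  have hk : (blk L π Q.subtypeL).ker = ⊥ := by
    rw [LinearMap.ker_eq_bot']
    rintro ⟨ξ, q⟩ h
    have h1 : L ξ + q = 0 := congrArg Prod.fst h
    have h2 : π ξ = 0 := congrArg Prod.snd h
    have hq : (q : F) = 0 := by
      refine (Submodule.disjoint_def.1 hQ.disjoint) q ⟨-ξ, ?_⟩ q.2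
      change L (-ξ) = q
      rw [map_neg, neg_eq_iff_add_eq_zero, h1]
    rw [hq, add_zero] at h1
    have := hπ ⟨ξ, h1⟩
    rw [h2] at this
    exact Prod.ext (congrArg Subtype.val this).symm (Subtype.ext hq)
  have hr : (blk L π Q.subtypeL).range = ⊤ := by
    rw [LinearMap.range_eq_top]
    rintro ⟨f, b⟩
    have hf : f ∈ L.range ⊔ Q := hQ.sup_eq_top ▸ Submodule.mem_top
    obtain ⟨_, ⟨ξ, rfl⟩, q, hq, rfl⟩ := Submodule.mem_sup.1 hf
    refine ⟨(ξ - (π ξ : E) + (b : E), ⟨q, hq⟩), Prod.ext ?_ ?_⟩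
    · change L (ξ - (π ξ : E) + (b : E)) + q = L ξ + q
      have h1 : L (π ξ : E) = 0 := (π ξ).2
      have h2 : L (b : E) = 0 := b.2
      rw [map_add, map_sub, h1, h2, sub_zero, add_zero]
    · change π (ξ - (π ξ : E) + (b : E)) = b
      rw [map_add, map_sub, hπ, hπ, sub_self, zero_add]
  exact ⟨Q, hfin, π, ContinuousLinearEquiv.ofBijective _ hk hr, hQ, hπ,
    ContinuousLinearEquiv.coe_ofBijective _ hk hr⟩

/-- between Banach spaces, finite kernel and cokernel are enough -/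
theorem isFredholm_of_finite {L : E →L[𝕜] F} (h1 : FiniteDimensional 𝕜 L.ker)
    (h2 : FiniteDimensional 𝕜 (F ⧸ L.range)) : L.IsFredholm := by
  obtain ⟨Q, _, π, B, -, -, hB⟩ := exists_block_aux (L := L)
  exact (Fr.of_block B hB).1

theorem exists_block {L : E →L[𝕜] F} (h : L.IsFredholm) :
    ∃ (_ : FiniteDimensional 𝕜 L.ker) (Q : Submodule 𝕜 F) (_ : FiniteDimensional 𝕜 Q)
      (π : E →L[𝕜] L.ker) (B : (E × Q) ≃L[𝕜] (F × L.ker)), IsCompl L.range Q ∧
      (∀ x : L.ker, π x = x) ∧ (B : E × Q →L[𝕜] F × L.ker) = blk L π Q.subtypeL := by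
  have h1 := h.finite_ker
  have : FiniteDimensional 𝕜 (F ⧸ L.range) := h.finite_coker
  exact ⟨h1, exists_block_aux⟩

theorem Fr.of_bijective {L : E →L[𝕜] F} (h : Bijective L) : Fr L 0 := by
  have := Fr.equiv (ContinuousLinearEquiv.ofBijective L (LinearMap.ker_eq_bot.2 h.1)
    (LinearMap.range_eq_top.2 h.2))
  rwa [ContinuousLinearEquiv.coe_ofBijective] at this

/-- Fredholm operators of index `n` form an open set; the kernel can only drop -/
theorem Fr.eventually' {L : E →L[𝕜] F} {n : ℤ} (h : Fr L n) :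
    ∀ᶠ L' in 𝓝 L, Fr L' n ∧ finrank 𝕜 L'.ker ≤ finrank 𝕜 L.ker := by
  obtain ⟨_, Q, _, π, B, -, -, hB⟩ := exists_block h.1
  have : CompleteSpace Q := FiniteDimensional.complete 𝕜 Q
  have hc : Continuous fun L' : E →L[𝕜] F => blk L' π Q.subtypeL := by
    have e : (fun L' : E →L[𝕜] F => blk L' π Q.subtypeL) = fun L' =>
        (ContinuousLinearMap.inl 𝕜 F L.ker).comp (L'.comp (ContinuousLinearMap.fst 𝕜 E Q)) +
          blk 0 π Q.subtypeL := by
      funext L'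
      ext x <;> simp
    rw [e]
    fun_prop
  have hn := (Fr.of_block B hB).unique h
  filter_upwards [hc.continuousAt.eventually (ContinuousLinearEquiv.isOpen.mem_nhds ⟨B, hB⟩)]
    with L' ⟨B', hB'⟩
  refine ⟨(Fr.of_block B' hB').cast hn, ?_⟩
  refine LinearMap.finrank_le_finrank_of_injective
    (f := (π : E →ₗ[𝕜] L.ker) ∘ₗ L'.ker.subtype) ?_
  rw [injective_iff_map_eq_zero]
  intro x hx
  have h1 : B' ((x : E), 0) = 0 := by
    change (B' : E × Q →L[𝕜] F × L.ker) _ = 0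
    rw [hB', blk_apply]
    have h2 : L' x = 0 := x.2
    have h3 : π x = 0 := hx
    simp [h2, h3]
  have := congrArg Prod.fst (B'.map_eq_zero_iff.1 h1)
  exact Subtype.ext this

theorem Fr.eventually {L : E →L[𝕜] F} {n : ℤ} (h : Fr L n) : ∀ᶠ L' in 𝓝 L, Fr L' n :=
  h.eventually'.mono fun _ h => h.1

theorem isOpen_fr (n : ℤ) : IsOpen {L : E →L[𝕜] F | Fr L n} :=
  isOpen_iff_mem_nhds.2 fun _ h => Fr.eventually h

theorem Fr.exists_ball {L : E →L[𝕜] F} {n : ℤ} (h : Fr L n) :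
    ∃ ε > 0, ∀ L', ‖L' - L‖ < ε → Fr L' n := by
  obtain ⟨ε, hε, hb⟩ := Metric.eventually_nhds_iff_ball.1 h.eventually
  exact ⟨ε, hε, fun L' hL => hb L' (by rwa [Metric.mem_ball, dist_eq_norm])⟩

/-- the index is constant in a continuous family over a preconnected set -/
theorem Fr.of_preconnected {X : Type*} [TopologicalSpace X] {s : Set X} (hs : IsPreconnected s)
    {L : X → E →L[𝕜] F} (hL : ContinuousOn L s) (hF : ∀ x ∈ s, (L x).IsFredholm) {a b : X}
    (ha : a ∈ s) (hb : b ∈ s) {n : ℤ} (h : Fr (L a) n) : Fr (L b) n := by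
  have hc : ContinuousOn (fun x => ind (L x)) s := by
    intro x hx
    have := (hL x hx).eventually (Fr.of (hF x hx)).eventually
    exact (tendsto_const_nhds (x := ind (L x))).congr' (this.mono fun y hy => hy.2.symm)
  exact ⟨hF b hb, (hs.constant hc hb ha).trans h.2⟩

theorem Fr.of_path {L : ℝ → E →L[𝕜] F} (hL : ContinuousOn L (Icc 0 1))
    (hF : ∀ t ∈ Icc (0 : ℝ) 1, (L t).IsFredholm) {n : ℤ} (h : Fr (L 0) n) : Fr (L 1) n :=
  Fr.of_preconnected isPreconnected_Icc hL hF (left_mem_Icc.2 zero_le_one)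
    (right_mem_Icc.2 zero_le_one) h

omit [CompleteSpace E] [CompleteSpace F] [CompleteSpace G] in
theorem Fr.prodMap_id {A : E →L[𝕜] F} {n : ℤ} (h : Fr A n) :
    Fr (A.prodMap (ContinuousLinearMap.id 𝕜 G)) n := by
  have := h.1.finite_ker
  have : FiniteDimensional 𝕜 (F ⧸ A.range) := h.1.finite_coker
  constructor
  · obtain ⟨v, h1, h2⟩ := h.1.exists_isQuasiInverse
    have h1' := LinearMap.FiniteRangeSetoid.equiv_iff_hasNoetherianRange.1 h1
    have h2' := LinearMap.FiniteRangeSetoid.equiv_iff_hasNoetherianRange.1 h2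
    refine isFredholm_of_quasi (v.prodMap (ContinuousLinearMap.id 𝕜 G)) ?_ ?_
    · exact noeth_congr ((h1'.comp_right (LinearMap.fst 𝕜 E G)).comp_left (LinearMap.inl 𝕜 E G))
        fun x => by ext <;> simp
    · exact noeth_congr ((h2'.comp_right (LinearMap.fst 𝕜 F G)).comp_left (LinearMap.inl 𝕜 F G))
        fun x => by ext <;> simp
  · rw [← h.2, ind, ind, LinearMap.index_eq_finrank_sub, LinearMap.index_eq_finrank_sub]
    congr 2
    · refine (LinearEquiv.finrank_eq (LinearEquiv.ofBijective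
        (((LinearMap.inl 𝕜 E G) ∘ₗ A.ker.subtype).codRestrict _ fun x => ?_) ⟨?_, ?_⟩)).symm
      · have : A x = 0 := x.2
        simp [this]
      · intro x y hxy
        exact Subtype.ext (congrArg (fun z => z.1.1) hxy)
      · rintro ⟨⟨x, g⟩, hx⟩
        have h1 : A x = 0 := congrArg Prod.fst hx
        have h2 : g = 0 := congrArg Prod.snd hx
        exact ⟨⟨x, h1⟩, Subtype.ext (Prod.ext rfl h2.symm)⟩
    · have hk : LinearMap.ker (A.range.mkQ ∘ₗ LinearMap.fst 𝕜 F G) =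
          (A.prodMap (ContinuousLinearMap.id 𝕜 G)).range := by
        ext ⟨f, g⟩
        simp only [LinearMap.mem_ker, LinearMap.comp_apply, LinearMap.fst_apply, Submodule.mkQ_apply,
          Submodule.Quotient.mk_eq_zero, LinearMap.mem_range]
        constructor
        · rintro ⟨x, rfl⟩
          exact ⟨(x, g), rfl⟩
        · rintro ⟨⟨x, g'⟩, hx⟩
          exact ⟨x, congrArg Prod.fst hx⟩
      rw [← hk]
      refine (LinearMap.quotKerEquivOfSurjective _ fun c => ?_).finrank_eq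
      obtain ⟨f, rfl⟩ := A.range.mkQ_surjective c
      exact ⟨(f, 0), rfl⟩

omit [CompleteSpace E] [CompleteSpace F] [CompleteSpace G] in
theorem Fr.id_prodMap {A : E →L[𝕜] F} {n : ℤ} (h : Fr A n) :
    Fr ((ContinuousLinearMap.id 𝕜 G).prodMap A) n := by
  have := (h.prodMap_id (G := G)).conj (ContinuousLinearEquiv.prodComm 𝕜 G E)
    (ContinuousLinearEquiv.prodComm 𝕜 F G)
  exact this.congr fun _ => rfl

omit [CompleteSpace E] [CompleteSpace F] [CompleteSpace G] [CompleteSpace H] in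
theorem Fr.prodMap {A : E →L[𝕜] F} {D : G →L[𝕜] H} {n m : ℤ} (hA : Fr A n) (hD : Fr D m) :
    Fr (A.prodMap D) (n + m) := by
  have := (hA.prodMap_id (G := H)).comp (hD.id_prodMap (G := E))
  exact this.congr fun _ => rfl

omit [CompleteSpace E] [CompleteSpace F] [CompleteSpace G] [CompleteSpace H] in
/-- triangular blocks `(x, y) ↦ (A x + B y, D y)` -/
theorem Fr.tri {A : E →L[𝕜] F} (B : G →L[𝕜] F) {D : G →L[𝕜] H} {n m : ℤ} (hA : Fr A n)
    (hD : Fr D m) : Fr ((A.coprod B).prod (D.comp (snd 𝕜 E G))) (n + m) := by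
  let S : (F × G) ≃L[𝕜] (F × G) := ContinuousLinearEquiv.equivOfInverse
    ((ContinuousLinearMap.fst 𝕜 F G + B.comp (snd 𝕜 F G)).prod (snd 𝕜 F G))
    ((ContinuousLinearMap.fst 𝕜 F G - B.comp (snd 𝕜 F G)).prod (snd 𝕜 F G))
    (fun z => by simp) (fun z => by simp)
  have := (hD.id_prodMap (G := F)).comp ((Fr.equiv S).comp (hA.prodMap_id (G := G)))
  refine Fr.cast ?_ (show m + (0 + n) = n + m by ring)
  exact this.congr fun _ => rfl

omit [CompleteSpace E] [CompleteSpace F] [CompleteSpace G] [CompleteSpace H] in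
/-- triangular blocks `(x, y) ↦ (A x, C x + D y)` -/
theorem Fr.tri' {A : E →L[𝕜] F} (C : E →L[𝕜] H) {D : G →L[𝕜] H} {n m : ℤ} (hA : Fr A n)
    (hD : Fr D m) : Fr ((A.comp (ContinuousLinearMap.fst 𝕜 E G)).prod (C.coprod D)) (n + m) := by
  have := (Fr.tri C hD hA).conj (ContinuousLinearEquiv.prodComm 𝕜 E G)
    (ContinuousLinearEquiv.prodComm 𝕜 H F)
  refine Fr.cast ?_ (add_comm m n)
  exact this.congr fun x => by ext <;> simp [add_comm]

section fd2
variable {K : Type*} [NormedAddCommGroup K] [NormedSpace 𝕜 K] [FiniteDimensional 𝕜 K]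

omit [CompleteSpace E] [CompleteSpace F] in
/-- finitely many more parameters -/
theorem Fr.coprod {L : E →L[𝕜] F} {n : ℤ} (h : Fr L n) (M : K →L[𝕜] F) :
    Fr (L.coprod M) (n + finrank 𝕜 K) := by
  have := (Fr.fst (F := F) (K := K)).comp (Fr.tri M h (Fr.id (E := K)))
  refine Fr.cast ?_ (show (finrank 𝕜 K : ℤ) + (n + 0) = _ by ring)
  exact this.congr fun _ => rfl

omit [CompleteSpace E] [CompleteSpace F] in
/-- finitely many more equations -/
theorem Fr.prod {L : E →L[𝕜] F} {n : ℤ} (h : Fr L n) (N : E →L[𝕜] K) :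
    Fr (L.prod N) (n - finrank 𝕜 K) := by
  have := (Fr.tri' N h (Fr.id (E := K))).comp (Fr.inl (E := E) (Q := K))
  refine Fr.cast ?_ (show n + 0 + -(finrank 𝕜 K : ℤ) = _ by ring)
  exact this.congr fun x => by ext <;> simp [add_comm]

omit [CompleteSpace E] [CompleteSpace F] in
theorem Fr.of_coprod {L : E →L[𝕜] F} {M : K →L[𝕜] F} {n : ℤ} (h : Fr (L.coprod M) n) :
    Fr L (n - finrank 𝕜 K) := by
  have := h.comp (Fr.inl (E := E) (Q := K))
  refine Fr.cast ?_ (show n + -(finrank 𝕜 K : ℤ) = _ by ring)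
  exact this.congr fun x => by simp

omit [CompleteSpace E] [CompleteSpace F] in
theorem Fr.of_prod {L : E →L[𝕜] F} {N : E →L[𝕜] K} {n : ℤ} (h : Fr (L.prod N) n) :
    Fr L (n + finrank 𝕜 K) := by
  have := (Fr.fst (F := F) (K := K)).comp h
  refine Fr.cast ?_ (add_comm _ n)
  exact this.congr fun _ => rfl

end fd2

end Crest.Agent.X212.Fred93
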