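import Crest.Agent.X212.Fred93.Basic

/-!
# X212 / Fred93 / Cpt (helper93): estimates modulo compact operators, compact perturbations

`Est L K C : ∀ x, ‖x‖ ≤ C * (‖L x‖ + ‖K x‖)`, `K` compact.
* `Est.subseq`, `Est.finite_ker`, `Est.bound_of_inj`, `Est.isClosed_range`;
* `Est.isFredholm`, `Est.fr` : Fredholm (and the index) from the estimate and finitely many functionals;
* `Fr.add_compact` : compact perturbations keep the index;
* `isFredholm_of_parametrix` : two-sided inverse modulo compact operators.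
-/

set_option autoImplicit false
set_option linter.unusedSectionVars false
open scoped Topology
open Set Filter Function Module ContinuousLinearMap Metric

namespace Crest.Agent.X212.Fred93

variable {𝕜 : Type*} [RCLike 𝕜] {E F G : Type*} [NormedAddCommGroup E] [NormedSpace 𝕜 E]
  [NormedAddCommGroup F] [NormedSpace 𝕜 F] [NormedAddCommGroup G] [NormedSpace 𝕜 G]

/-- the basic estimate modulo `K` -/
def Est (L : E →L[𝕜] F) (K : E →L[𝕜] G) (C : ℝ) : Prop := ∀ x, ‖x‖ ≤ C * (‖L x‖ + ‖K x‖)

theorem cauchySeq_of_bound {T : E →L[𝕜] F} {c : ℝ} (h : ∀ x, ‖x‖ ≤ c * ‖T x‖) {x : ℕ → E}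
    (hx : CauchySeq fun n => T (x n)) : CauchySeq x := by
  have hA : AntilipschitzWith (Real.toNNReal c) T :=
    AddMonoidHomClass.antilipschitz_of_bound T fun y =>
      (h y).trans (mul_le_mul_of_nonneg_right (Real.le_coe_toNNReal c) (norm_nonneg _))
  exact (hA.isUniformInducing T.uniformContinuous).cauchy_map_iff.1 hx

theorem isClosed_range_of_bound [CompleteSpace E] {T : E →L[𝕜] F} {c : ℝ}
    (h : ∀ x, ‖x‖ ≤ c * ‖T x‖) : IsClosed (range T) :=
  (AddMonoidHomClass.antilipschitz_of_bound (K := Real.toNNReal c) T fun y =>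
    (h y).trans (mul_le_mul_of_nonneg_right (Real.le_coe_toNNReal c)
      (norm_nonneg _))).isClosed_range T.uniformContinuous

variable {L : E →L[𝕜] F} {K : E →L[𝕜] G} {C : ℝ}

theorem Est.prod_bound (h : Est L K C) (x : E) : ‖x‖ ≤ (2 * |C|) * ‖L.prod K x‖ := by
  have h1 : ‖L x‖ ≤ ‖L.prod K x‖ := norm_fst_le (L.prod K x)
  have h2 : ‖K x‖ ≤ ‖L.prod K x‖ := norm_snd_le (L.prod K x)
  have h3 := h x
  have h4 : C * (‖L x‖ + ‖K x‖) ≤ |C| * (‖L x‖ + ‖K x‖) :=
    mul_le_mul_of_nonneg_right (le_abs_self C) (by positivity)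
  nlinarith [abs_nonneg C]

variable [CompleteSpace E]

/-- properness on bounded sets -/
theorem Est.subseq (h : Est L K C) (hK : IsCompactOperator K) {x : ℕ → E} {R : ℝ}
    (hb : ∀ n, ‖x n‖ ≤ R) {y : F} (hy : Tendsto (fun n => L (x n)) atTop (𝓝 y)) :
    ∃ (a : E) (φ : ℕ → ℕ), StrictMono φ ∧ Tendsto (x ∘ φ) atTop (𝓝 a) ∧ L a = y := by
  obtain ⟨S, hS, hKS⟩ := IsCompactOperator.image_closedBall_subset_compact
    (f := (K : E →ₗ[𝕜] G)) hK R
  obtain ⟨z, -, φ, hφ, hz⟩ := hS.tendsto_subseq (x := fun n => K (x n))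
    fun n => hKS ⟨x n, by simpa using hb n, rfl⟩
  have hy' : Tendsto (fun n => L (x (φ n))) atTop (𝓝 y) := hy.comp hφ.tendsto_atTop
  have hc : CauchySeq fun n => L.prod K ((x ∘ φ) n) := (hy'.prodMk_nhds hz).cauchySeq
  obtain ⟨a, ha⟩ := cauchySeq_tendsto_of_complete (cauchySeq_of_bound h.prod_bound hc)
  exact ⟨a, φ, hφ, ha, tendsto_nhds_unique ((L.continuous.tendsto a).comp ha) hy'⟩

theorem Est.finite_ker (h : Est L K C) (hK : IsCompactOperator K) : FiniteDimensional 𝕜 L.ker := by
  refine FiniteDimensional.of_isCompact_closedBall₀ 𝕜 zero_lt_one (IsSeqCompact.isCompact ?_)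
  intro x hx
  obtain ⟨a, φ, hφ, ha, h0⟩ := h.subseq hK (x := fun n => (x n : E)) (R := 1)
    (fun n => by simpa using hx n) (y := 0)
    (tendsto_const_nhds.congr fun n => (show L (x n : E) = 0 from (x n).2).symm)
  have ht : Tendsto (x ∘ φ) atTop (𝓝 ⟨a, h0⟩) := tendsto_subtype_rng.2 ha
  exact ⟨⟨a, h0⟩, isClosed_closedBall.mem_of_tendsto ht (Eventually.of_forall fun n => hx _),
    φ, hφ, ht⟩

theorem Est.bound_of_inj (h : Est L K C) (hK : IsCompactOperator K) (hi : Injective L) :
    ∃ c > 0, ∀ x, ‖x‖ ≤ c * ‖L x‖ := by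
  by_contra hn
  push Not at hn
  choose x hx using fun n : ℕ => hn ((n : ℝ) + 1) (by positivity)
  have hx0 : ∀ n, 0 < ‖x n‖ := fun n => lt_of_le_of_lt (by positivity) (hx n)
  let u : ℕ → E := fun n => ((‖x n‖⁻¹ : ℝ) : 𝕜) • x n
  have hu : ∀ n, ‖u n‖ = 1 := fun n => by
    simp only [u, norm_smul, RCLike.norm_ofReal, abs_inv, abs_norm]
    exact inv_mul_cancel₀ (hx0 n).ne'
  have hL : Tendsto (fun n => L (u n)) atTop (𝓝 0) := by
    refine squeeze_zero_norm (a := fun n : ℕ => 1 / ((n : ℝ) + 1)) (fun n => ?_)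
      tendsto_one_div_add_atTop_nhds_zero_nat
    simp only [u, map_smul, norm_smul, RCLike.norm_ofReal, abs_inv, abs_norm]
    rw [inv_mul_le_iff₀ (hx0 n), mul_one_div, le_div_iff₀ (by positivity), mul_comm]
    exact (hx n).le
  obtain ⟨a, φ, -, ha, h0⟩ := h.subseq hK (fun n => (hu n).le) hL
  have h1 : ‖a‖ = 1 := tendsto_nhds_unique ha.norm (tendsto_const_nhds.congr fun n => (hu _).symm)
  rw [(injective_iff_map_eq_zero L).1 hi a h0] at h1
  simp at h1

/-- the estimate without the compact term, modulo a projection onto the kernel -/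
theorem Est.bound_mod_ker (h : Est L K C) (hK : IsCompactOperator K) (π : E →L[𝕜] L.ker)
    (hπ : ∀ x : L.ker, π x = x) : ∃ c > 0, ∀ x, π x = 0 → ‖x‖ ≤ c * ‖L x‖ := by
  have h' : Est (L.prod π) K |C| := fun x => (h x).trans <|
    (mul_le_mul_of_nonneg_right (le_abs_self C) (by positivity)).trans <|
      mul_le_mul_of_nonneg_left (by
        have : ‖L x‖ ≤ ‖L.prod π x‖ := norm_fst_le (L.prod π x)
        linarith) (abs_nonneg C)
  obtain ⟨c, hc, hb⟩ := h'.bound_of_inj hK (by
    rw [injective_iff_map_eq_zero]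
    intro x hx
    have h1 : L x = 0 := congrArg Prod.fst hx
    have h2 : π x = 0 := congrArg Prod.snd hx
    have := hπ ⟨x, h1⟩
    rw [h2] at this
    exact (congrArg Subtype.val this).symm)
  refine ⟨c, hc, fun x hx => ?_⟩
  have := hb x
  rwa [ContinuousLinearMap.prod_apply, hx, Prod.norm_def, norm_zero, max_eq_left (norm_nonneg _)] at this

theorem Est.isClosed_range (h : Est L K C) (hK : IsCompactOperator K) : IsClosed (range L) := by
  have := h.finite_ker hK
  obtain ⟨π, hπ⟩ := Submodule.ClosedComplemented.of_finiteDimensional L.ker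
  obtain ⟨c, -, hb⟩ := h.bound_mod_ker hK π hπ
  have : CompleteSpace π.ker := π.isClosed_ker.completeSpace_coe
  have h1 := isClosed_range_of_bound (T := L.comp π.ker.subtypeL) (c := c) fun x => hb x x.2
  have e : range L = range (L.comp π.ker.subtypeL) := by
    refine Subset.antisymm ?_ ?_
    · rintro _ ⟨x, rfl⟩
      refine ⟨⟨x - (π x : E), ?_⟩, ?_⟩
      · change π (x - (π x : E)) = 0
        rw [map_sub, hπ, sub_self]
      · change L (x - (π x : E)) = L x
        have h1 : L (π x : E) = 0 := (π x).2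
        rw [map_sub, h1, sub_zero]
    · rintro _ ⟨x, rfl⟩
      exact ⟨x, rfl⟩
  rwa [e]

variable [CompleteSpace F]

section
variable {Q : Type*} [AddCommGroup Q] [Module 𝕜 Q] [FiniteDimensional 𝕜 Q]

/-- estimate + finitely many linear conditions implying approximate solvability ⟹ Fredholm -/
theorem Est.isFredholm (h : Est L K C) (hK : IsCompactOperator K) (l : F →ₗ[𝕜] Q)
    (hl : ∀ f, l f = 0 → f ∈ closure (range L)) : L.IsFredholm := by
  refine isFredholm_of_finite (h.finite_ker hK) ?_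
  have h1 : l.ker ≤ L.range := fun f hf => by
    have := hl f hf
    rwa [(h.isClosed_range hK).closure_eq] at this
  have : FiniteDimensional 𝕜 (F ⧸ l.ker) := l.quotKerEquivRange.symm.finiteDimensional
  exact Module.Finite.of_surjective (Submodule.factor h1) (Submodule.factor_surjective h1)

/-- the index is `dim ker L - dim Q` when `l : F → Q` is onto with kernel the closure of the range -/
theorem Est.fr (h : Est L K C) (hK : IsCompactOperator K) (l : F →ₗ[𝕜] Q) (hs : Surjective l)
    (hl : ∀ f, l f = 0 → f ∈ closure (range L)) (h0 : ∀ x, l (L x) = 0) :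
    Fr L (finrank 𝕜 L.ker - finrank 𝕜 Q) := by
  refine ⟨h.isFredholm hK l hl, ?_⟩
  have e : L.range = l.ker := by
    refine le_antisymm ?_ fun f hf => ?_
    · rintro _ ⟨x, rfl⟩
      exact h0 x
    · have := hl f hf
      rwa [(h.isClosed_range hK).closure_eq] at this
  rw [ind, LinearMap.index_eq_finrank_sub, e, (l.quotKerEquivOfSurjective hs).finrank_eq]

end

omit [CompleteSpace F] in
theorem surj_of_inj_id_add {T : E →L[𝕜] E} (hT : IsCompactOperator T)
    (hi : Injective (ContinuousLinearMap.id 𝕜 E + T)) : Surjective (ContinuousLinearMap.id 𝕜 E + T) := by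
  rcases hT.hasEigenvalue_or_mem_resolventSet (μ := -1) (by simp) with h | h
  · obtain ⟨v, hv⟩ := h.exists_hasEigenvector
    have h1 : T v = -v := by simpa using hv.apply_eq_smul
    exact absurd ((injective_iff_map_eq_zero _).1 hi v (by simp [h1])) hv.2
  · obtain ⟨u, hu⟩ := h
    intro y
    refine ⟨(↑u⁻¹ : E →L[𝕜] E) (-y), ?_⟩
    have h1 : (↑u : E →L[𝕜] E) ((↑u⁻¹ : E →L[𝕜] E) (-y)) = -y :=
      congrArg (fun f : E →L[𝕜] E => f (-y)) u.mul_inv
    set w := (↑u⁻¹ : E →L[𝕜] E) (-y)
    rw [hu] at h1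
    have h2 : -w - T w = -y := by simpa [Algebra.algebraMap_eq_smul_one] using h1
    change w + T w = y
    rw [← neg_inj, neg_add, ← sub_eq_add_neg, h2]

omit [CompleteSpace F] in
theorem isFredholm_id_add {T : E →L[𝕜] E} (hT : IsCompactOperator T) :
    (ContinuousLinearMap.id 𝕜 E + T).IsFredholm := by
  set S := ContinuousLinearMap.id 𝕜 E + T with hS
  have hE : Est S T 1 := fun x => by
    have : x = S x - T x := by simp [hS]
    rw [one_mul]
    exact (congrArg norm this).trans_le (norm_sub_le _ _)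
  have hk := hE.finite_ker hT
  refine isFredholm_of_finite hk ?_
  by_contra hn
  have hlt : Module.rank 𝕜 S.ker < Module.rank 𝕜 (E ⧸ S.range) :=
    (Module.rank_lt_aleph0 𝕜 S.ker).trans_le (not_lt.1 fun h => hn (Module.rank_lt_aleph0_iff.1 h))
  obtain ⟨j, hj⟩ := Module.Free.exists_linearMap_injective_of_rank_lt hlt
  obtain ⟨A, hA⟩ := Module.projective_lifting_property S.range.mkQ j S.range.mkQ_surjective
  have hA' : ∀ x, S.range.mkQ (A x) = j x := fun x => congrArg (fun f => f x) hA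
  obtain ⟨π, hπ⟩ := Submodule.ClosedComplemented.of_finiteDimensional S.ker
  have : ProperSpace S.ker := FiniteDimensional.proper_rclike 𝕜 S.ker
  let A' : S.ker →L[𝕜] E := LinearMap.toContinuousLinearMap A
  have hc : IsCompactOperator (T + A'.comp π) :=
    hT.add ((isCompactOperator_of_locallyCompactSpace_dom π).clm_comp A')
  have hap : ∀ x, (ContinuousLinearMap.id 𝕜 E + (T + A'.comp π)) x = S x + A (π x) := fun x => by
    simp [hS, A', add_assoc]
  have hq : ∀ x, S.range.mkQ (S x) = 0 := fun x => (Submodule.Quotient.mk_eq_zero _).2 ⟨x, rfl⟩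
  have hsurj := surj_of_inj_id_add hc (by
    rw [injective_iff_map_eq_zero]
    intro x hx
    rw [hap] at hx
    have h1 := congrArg S.range.mkQ hx
    rw [map_add, hq, zero_add, hA', map_zero] at h1
    have h2 : π x = 0 := (injective_iff_map_eq_zero j).1 hj _ h1
    rw [h2, map_zero, add_zero] at hx
    have := hπ ⟨x, hx⟩
    rw [h2] at this
    exact (congrArg Subtype.val this).symm)
  refine hn (Module.Finite.of_surjective j fun c => ?_)
  obtain ⟨y, rfl⟩ := S.range.mkQ_surjective c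
  obtain ⟨x, rfl⟩ := hsurj y
  exact ⟨π x, by rw [hap, map_add, hq, zero_add, hA']⟩

omit [CompleteSpace F] in
theorem Fr.id_add {T : E →L[𝕜] E} (hT : IsCompactOperator T) :
    Fr (ContinuousLinearMap.id 𝕜 E + T) 0 := by
  have := Fr.of_path (L := fun t : ℝ => ContinuousLinearMap.id 𝕜 E + (t : 𝕜) • T) (by fun_prop)
    (fun t _ => isFredholm_id_add (hT.smul (t : 𝕜))) (n := 0) (Fr.id.congr fun x => by simp)
  exact this.congr fun x => by simp

/-- compact perturbations keep the index -/
theorem Fr.add_compact {n : ℤ} (h : Fr L n) {T : E →L[𝕜] F} (hT : IsCompactOperator T) :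
    Fr (L + T) n := by
  obtain ⟨_, Q, _, π, B, -, -, hB⟩ := exists_block h.1
  have : CompleteSpace Q := FiniteDimensional.complete 𝕜 Q
  let T' : E × Q →L[𝕜] E × Q := (B.symm : F × L.ker →L[𝕜] E × Q).comp
    ((ContinuousLinearMap.inl 𝕜 F L.ker).comp (T.comp (ContinuousLinearMap.fst 𝕜 E Q)))
  have hT' : IsCompactOperator T' :=
    ((hT.comp_clm (ContinuousLinearMap.fst 𝕜 E Q)).clm_comp
      (ContinuousLinearMap.inl 𝕜 F L.ker)).clm_comp (B.symm : F × L.ker →L[𝕜] E × Q)
  have h1 : Fr (blk (L + T) π Q.subtypeL) (0 + 0) := ((Fr.equiv B).comp (Fr.id_add hT')).congr fun z => by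
    have hz : B z = blk L π Q.subtypeL z := congrArg (fun f : E × Q →L[𝕜] F × L.ker => f z) hB
    change _ = B (z + B.symm (T z.1, 0))
    rw [map_add, ContinuousLinearEquiv.apply_symm_apply, hz]
    ext
    · simp [add_right_comm]
    · simp
  have hn := (Fr.of_block B hB).unique h
  exact h1.of_blk.cast (by omega)

theorem Fr.of_sub_compact {n : ℤ} (h : Fr L n) {L' : E →L[𝕜] F} (hT : IsCompactOperator (L' - L)) :
    Fr L' n := (h.add_compact hT).congr fun x => by simp

/-- a two-sided inverse modulo compact operators -/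
theorem isFredholm_of_parametrix (P P' : F →L[𝕜] E)
    (h1 : IsCompactOperator (P.comp L - ContinuousLinearMap.id 𝕜 E))
    (h2 : IsCompactOperator (L.comp P' - ContinuousLinearMap.id 𝕜 F)) : L.IsFredholm := by
  have a := (Fr.id.of_sub_compact h1).1
  have b := (Fr.id.of_sub_compact h2).1
  have := a.finite_ker
  have : FiniteDimensional 𝕜 (F ⧸ (L.comp P').range) := b.finite_coker
  refine isFredholm_of_finite (Submodule.finiteDimensional_of_le (S₂ := (P.comp L).ker) ?_) ?_
  · intro x hx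
    have : L x = 0 := hx
    change P (L x) = 0
    rw [this, map_zero]
  · have h : (L.comp P').range ≤ L.range := by
      rintro _ ⟨x, rfl⟩
      exact ⟨P' x, rfl⟩
    exact Module.Finite.of_surjective (Submodule.factor h) (Submodule.factor_surjective h)

omit [CompleteSpace F] in
/-- a Fredholm operator satisfies the basic estimate with a finite-rank `K` -/
theorem exists_est [CompleteSpace F] (h : L.IsFredholm) :
    ∃ (π : E →L[𝕜] L.ker) (C : ℝ), 0 < C ∧ (∀ x : L.ker, π x = x) ∧ Est L π C := by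
  obtain ⟨_, Q, _, π, B, -, hπ, hB⟩ := exists_block h
  refine ⟨π, ‖(B.symm : F × L.ker →L[𝕜] E × Q)‖ + 1, by positivity, hπ, fun x => ?_⟩
  have hz : B (x, 0) = (L x, π x) := by
    have := congrArg (fun f : E × Q →L[𝕜] F × L.ker => f (x, 0)) hB
    simpa using this
  have h1 : ((x, 0) : E × Q) = (B.symm : F × L.ker →L[𝕜] E × Q) (L x, π x) := by
    rw [← hz]; simp
  have h2 : ‖x‖ ≤ ‖((x, 0) : E × Q)‖ := norm_fst_le ((x, 0) : E × Q)
  have h3 : ‖(L x, π x)‖ ≤ ‖L x‖ + ‖π x‖ := by
    rw [Prod.norm_def]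
    exact max_le (by simp) (by simp)
  refine h2.trans (h1 ▸ (le_opNorm _ _).trans ?_)
  gcongr
  linarith

/-- an onto Fredholm operator has a bounded right inverse -/
theorem exists_rightInverse (h : L.IsFredholm) (hs : Surjective L) :
    ∃ R : F →L[𝕜] E, ∀ y, L (R y) = y := by
  obtain ⟨_, Q, _, π, B, hQ, -, hB⟩ := exists_block h
  refine ⟨(ContinuousLinearMap.fst 𝕜 E Q).comp ((B.symm : F × L.ker →L[𝕜] E × Q).comp
    (ContinuousLinearMap.inl 𝕜 F L.ker)), fun y => ?_⟩
  have hz : B (B.symm (y, 0)) = blk L π Q.subtypeL (B.symm (y, 0)) :=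
    congrArg (fun f : E × Q →L[𝕜] F × L.ker => f (B.symm (y, 0))) hB
  rw [ContinuousLinearEquiv.apply_symm_apply] at hz
  have h1 : y = L (B.symm (y, 0)).1 + ((B.symm (y, 0)).2 : F) := congrArg Prod.fst hz
  have hq : ((B.symm (y, 0)).2 : F) = 0 :=
    (Submodule.disjoint_def.1 hQ.disjoint) _ (hs _) (B.symm (y, 0)).2.2
  rw [hq, add_zero] at h1
  exact h1.symm

end Crest.Agent.X212.Fred93
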